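import Vale.Agent.P032W.S5.H80.Ray

/-!
# P032: the sides of a carried arc in the wild frame `Irr U T`

`R` on `S(x)`, the colour `j` is carried by `S(x)` near `R`.

* `side_in` : if `j` does not occur at `x` on the side away from `R`, then `j` is free at all points near `R` inside `S(x)`,
* `no_far` : palettes inside `{i, j}` near `R`, `j` occurs at `x` towards `R`: no partner of the colour `i` near `2 R - x`,
* `side_out` : if `i` is carried, does not occur at `x` towards `R`, and has no partner near `2 R - x`, then `i` is free at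
  all points near `R` outside `S(x)`.
-/

open Set Filter Topology Metric

noncomputable section

namespace Vale.Agent.P032.H374

open Vale.Agent.P032.Six

variable {k : ℕ} {U : Fin k → Set ℂ} {T : ℂ → Set (Fin k)} {x R : ℂ} {i j c : Fin k}

/-! ### elementary geometry -/

theorem cis_add_pi (t : ℝ) : cis (t + Real.pi) = -cis t := by
  unfold cis
  push_cast
  rw [add_mul, Complex.exp_add, Complex.exp_pi_mul_I]
  ring

theorem proj_sq {u v : ℂ} {ρ : ℝ} (hu : ‖u‖ = 1) (hd : ‖(ρ : ℂ) * u - v‖ = 1) :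
    ρ * (‖u - v‖ ^ 2 - 1) = (1 - ρ) * ((1 + ρ) - ‖v‖ ^ 2) := by
  have h1 : ‖u‖ ^ 2 = 1 := by rw [hu]; norm_num
  have h2 : ‖(ρ : ℂ) * u - v‖ ^ 2 = 1 := by rw [hd]; norm_num
  rw [Complex.sq_norm, Complex.normSq_apply] at h1 h2 ⊢
  rw [Complex.sq_norm, Complex.normSq_apply]
  simp only [Complex.sub_re, Complex.sub_im, Complex.mul_re, Complex.mul_im, Complex.ofReal_re,
    Complex.ofReal_im, zero_mul, sub_zero, add_zero] at h1 h2 ⊢
  linear_combination (ρ ^ 2 - ρ) * (-1) * h1 + h2

theorem proj_gt {u v : ℂ} {ρ : ℝ} (hu : ‖u‖ = 1) (hd : ‖(ρ : ℂ) * u - v‖ = 1) (h0 : 0 < ρ)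
    (h1 : ρ < 1) (hv : ‖v‖ < 1) : 1 < ‖u - v‖ := by
  have key := proj_sq hu hd
  have hv0 := norm_nonneg v
  have hp : 0 < (1 - ρ) * ((1 + ρ) - ‖v‖ ^ 2) := by
    refine mul_pos (by linarith) ?_
    nlinarith
  by_contra hcon
  push Not at hcon
  have h3 := norm_nonneg (u - v)
  have h4 : ρ * (‖u - v‖ ^ 2 - 1) ≤ 0 := mul_nonpos_of_nonneg_of_nonpos h0.le (by nlinarith)
  linarith

theorem proj_lt {u v : ℂ} {ρ : ℝ} (hu : ‖u‖ = 1) (hd : ‖(ρ : ℂ) * u - v‖ = 1)
    (h1 : 1 < ρ) (hv : ‖v‖ < 1) : ‖u - v‖ < 1 := by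
  have key := proj_sq hu hd
  have hv0 := norm_nonneg v
  have hp : 0 < (ρ - 1) * ((1 + ρ) - ‖v‖ ^ 2) := by
    refine mul_pos (by linarith) ?_
    nlinarith
  by_contra hcon
  push Not at hcon
  have h4 : 0 ≤ ρ * (‖u - v‖ ^ 2 - 1) := mul_nonneg (by linarith) (by nlinarith)
  have h5 : (1 - ρ) * ((1 + ρ) - ‖v‖ ^ 2) = -((ρ - 1) * ((1 + ρ) - ‖v‖ ^ 2)) := by ring
  linarith

/-- directions of the points near `x + r cis θ` -/
theorem ev_dir {r θ : ℝ} (hr : 0 < r) {η : ℝ} (hη : 0 < η) :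
    ∀ᶠ p in 𝓝 (x + r * cis θ), ∃ α : ℝ, |α| < η ∧ p = x + (dist p x : ℂ) * cis (θ + α) := by
  have hne : cis θ ≠ 0 := by
    intro h0
    have := norm_cis θ
    rw [h0, norm_zero] at this
    exact zero_ne_one this
  have hc : ContinuousAt (fun p : ℂ => ((p - x) / cis θ).arg) (x + r * cis θ) := by
    have h1 : ContinuousAt (fun p : ℂ => (p - x) / cis θ) (x + r * cis θ) := by
      have : Continuous fun p : ℂ => (p - x) / cis θ := by fun_prop
      exact this.continuousAt
    have h2 : ((x + r * cis θ) - x) / cis θ = r := by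
      rw [add_sub_cancel_left]; exact mul_div_cancel_right₀ _ hne
    have h3 : ContinuousAt Complex.arg (((x + r * cis θ) - x) / cis θ) := by
      rw [h2]
      exact Complex.continuousAt_arg (Complex.ofReal_mem_slitPlane.2 hr)
    exact ContinuousAt.comp (g := Complex.arg) h3 h1
  have h0 : ((x + r * cis θ) - x) / cis θ = r := by
    rw [add_sub_cancel_left]; exact mul_div_cancel_right₀ _ hne
  have h4 : Tendsto (fun p : ℂ => ((p - x) / cis θ).arg) (𝓝 (x + r * cis θ)) (𝓝 0) := by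
    have h5 := hc.tendsto
    have h6 : ((x + r * cis θ - x) / cis θ).arg = 0 := by
      rw [h0, Complex.arg_ofReal_of_nonneg hr.le]
    rwa [h6] at h5
  filter_upwards [h4.eventually (Metric.ball_mem_nhds (0 : ℝ) hη)] with p hp
  have hp' : dist ((p - x) / cis θ).arg 0 < η := hp
  rw [Real.dist_eq, sub_zero] at hp'
  refine ⟨((p - x) / cis θ).arg, hp', ?_⟩
  have hn : ‖(p - x) / cis θ‖ = dist p x := by
    rw [norm_div, norm_cis, div_one, dist_eq_norm]
  have e1 := Complex.norm_mul_exp_arg_mul_I ((p - x) / cis θ)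
  rw [hn] at e1
  have e2 : cis (θ + ((p - x) / cis θ).arg) = cis θ * cis (((p - x) / cis θ).arg) := by
    unfold cis; rw [← Complex.exp_add]; congr 1; push_cast; ring
  have e3 : cis (((p - x) / cis θ).arg) = Complex.exp ((((p - x) / cis θ).arg : ℝ) * Complex.I) := rfl
  rw [e2, e3, mul_left_comm, e1, mul_div_cancel₀ _ hne]
  ring

/-! ### partners -/

/-- the partners of the points near `R` are near the partners of `R` -/
theorem partner_near {F : Set ℂ} (hF : IsClosed F) {y₁ y₂ : ℂ} {ε : ℝ} (hε : 0 < ε)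
    (hpl : ∀ v, dist R v = 1 → v ∈ F → v = y₁ ∨ v = y₂) :
    ∀ᶠ p in 𝓝 R, ∀ y, dist p y = 1 → y ∈ F → dist y y₁ < ε ∨ dist y y₂ < ε := by
  let K : Set ℂ := sphere R 1 ∩ ({v | ε / 2 ≤ dist v y₁} ∩ {v | ε / 2 ≤ dist v y₂})
  have hK : IsCompact K := (isCompact_sphere R 1).inter_right
    ((isClosed_le (by fun_prop) (by fun_prop)).inter (isClosed_le (by fun_prop) (by fun_prop)))
  have hdis : Disjoint K F := by
    rw [Set.disjoint_left]
    rintro v ⟨hv1, hv2, hv3⟩ hv
    have hv1 : dist v R = 1 := hv1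
    have hv2 : ε / 2 ≤ dist v y₁ := hv2
    have hv3 : ε / 2 ≤ dist v y₂ := hv3
    rcases hpl v (by rw [dist_comm]; exact hv1) hv with e | e
    · rw [e, dist_self] at hv2; linarith
    · rw [e, dist_self] at hv3; linarith
  obtain ⟨m, hm, hmd⟩ := hdis.exists_thickenings hK hF
  filter_upwards [ball_mem_nhds R (lt_min hm (half_pos hε))] with p hp y hy hyF
  have hp1 : dist p R < m := lt_of_lt_of_le (mem_ball.1 hp) (min_le_left _ _)
  have hp2 : dist p R < ε / 2 := lt_of_lt_of_le (mem_ball.1 hp) (min_le_right _ _)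
  set y' := y + (R - p) with hy'
  have hd : dist y y' = dist p R := by
    rw [dist_eq_norm, hy', dist_eq_norm]
    congr 1; ring
  have h1 : dist R y' = 1 := by
    rw [← hy, dist_eq_norm, dist_eq_norm, hy']
    congr 1; ring
  have h2 : y' ∉ K := by
    intro hcon
    refine Set.disjoint_left.1 hmd (self_subset_thickening hm _ hcon) ?_
    rw [mem_thickening_iff]
    exact ⟨y, hyF, by rw [dist_comm, hd]; exact hp1⟩
  by_contra hcon
  push Not at hcon
  refine h2 ⟨by rw [mem_sphere, dist_comm]; exact h1, ?_, ?_⟩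
  · show ε / 2 ≤ dist y' y₁
    have := dist_triangle y y' y₁
    linarith [hcon.1]
  · show ε / 2 ≤ dist y' y₂
    have := dist_triangle y y' y₂
    linarith [hcon.2]

/-- an arc of `S(x)` -/
def arcs (x : ℂ) (θ η : ℝ) : Set ℂ := (fun t : ℝ => x + cis t) '' Ioo (θ - η) (θ + η)

theorem arcs_preconnected (x : ℂ) (θ η : ℝ) : IsPreconnected (arcs x θ η) :=
  isPreconnected_Ioo.image _ (continuous_const.add continuous_cis).continuousOn

theorem exists_arcs {P : ℂ → Prop} {θ : ℝ} (hJ : ∀ᶠ q in 𝓝[sphere x 1] (x + cis θ), P q) :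
    ∃ η > 0, ∀ q ∈ arcs x θ η, P q := by
  obtain ⟨s, hs, hsub⟩ := mem_nhdsWithin_iff_exists_mem_nhds_inter.1 hJ
  have hc : ContinuousAt (fun t => x + cis t) θ :=
    (continuous_const.add continuous_cis).continuousAt
  obtain ⟨η, hη, hball⟩ := Metric.mem_nhds_iff.1 (hc.preimage_mem_nhds hs)
  refine ⟨η, hη, ?_⟩
  rintro _ ⟨t, ht, rfl⟩
  refine hsub ⟨hball ?_, dist_add_cis x t⟩
  rw [mem_ball, Real.dist_eq, abs_lt]
  exact ⟨by linarith [ht.1], by linarith [ht.2]⟩

theorem mem_arcs {θ η α : ℝ} (hα : |α| < η) : x + cis (θ + α) ∈ arcs x θ η :=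
  ⟨θ + α, ⟨by linarith [(abs_lt.1 hα).1], by linarith [(abs_lt.1 hα).2]⟩, rfl⟩

/-- the partners of a point on a carried arc -/
theorem line_of (h : Irr U T) (hR : dist R x = 1) (hJ : ∀ᶠ q in 𝓝[sphere x 1] R, c ∈ Pal U q) :
    ∀ v, dist R v = 1 → v ∈ closure (U c) → v = x ∨ v = 2 * R - x := by
  intro v hv hvc
  rcases h.mx.partner_line hR hJ hv hvc with e | e
  · exact Or.inl e
  · exact Or.inr (by rw [← e]; ring)

/-- a point of a unit circle touched from outside -/
theorem far_lt {θ β : ℝ} (hβ0 : 0 < β) (hβ : β < Real.pi) :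
    1 < dist (x + cis (θ + β)) (x + 2 * cis θ) := by
  have e0 : dist (x + cis (θ + β)) (x + 2 * cis θ) ^ 2 = 5 - 4 * Real.cos β := by
    rw [Six.sq_dist]
    simp only [Complex.add_re, Complex.add_im, Complex.mul_re, Complex.mul_im, Complex.re_ofNat,
      Complex.im_ofNat, cis_re, cis_im, zero_mul, sub_zero, add_zero, Real.cos_add, Real.sin_add]
    have h1 := Real.sin_sq_add_cos_sq θ
    have h2 := Real.sin_sq_add_cos_sq β
    linear_combination (4 + Real.sin β ^ 2 + Real.cos β ^ 2 - 4 * Real.cos β) * h1 + h2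
  have h3 : Real.cos β < 1 := by
    rw [← Real.cos_zero]
    exact Real.cos_lt_cos_of_nonneg_of_le_pi le_rfl hβ.le hβ0
  have := dist_nonneg (x := x + cis (θ + β)) (y := x + 2 * cis θ)
  by_contra hcon
  push Not at hcon
  nlinarith

/-- **The inner side.** -/
theorem side_in (h : Irr U T) (hR : dist R x = 1) (hJ : ∀ᶠ q in 𝓝[sphere x 1] R, j ∈ Pal U q)
    (hno : ∀ᶠ y in 𝓝 x, 1 < dist y R → j ∉ Pal U y) :
    ∀ᶠ p in 𝓝 R, dist p x < 1 → Fre U j p := by
  obtain ⟨θ, hθ⟩ := exists_cis (u := R - x) (by rw [← dist_eq_norm]; exact hR)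
  have hRθ : R = x + cis θ := by rw [← hθ]; ring
  have hJ' := hJ
  rw [hRθ] at hJ'
  obtain ⟨η₀, hη₀, hΓ₀⟩ := exists_arcs hJ'
  set η := min η₀ 1 with hη
  have hη0 : 0 < η := lt_min hη₀ one_pos
  have hΓ : ∀ q ∈ arcs x θ η, q ∈ closure (U j) := by
    rintro q ⟨t, ht, rfl⟩
    exact hΓ₀ _ ⟨t, ⟨by linarith [ht.1, min_le_left η₀ 1], by linarith [ht.2, min_le_left η₀ 1]⟩, rfl⟩
  have hpre := arcs_preconnected x θ η
  have hRm : R ∈ arcs x θ η := by
    have := mem_arcs (x := x) (θ := θ) (η := η) (α := 0) (by rw [abs_zero]; exact hη0)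
    rwa [add_zero, ← hRθ] at this
  -- the point `2 R - x`
  set V := 2 * R - x with hV
  have hVθ : V = x + (2 : ℝ) * cis θ := by rw [hV, hRθ]; push_cast; ring
  have e1 : ∀ᶠ y in 𝓝 V, ∃ α : ℝ, |α| < η ∧ y = x + (dist y x : ℂ) * cis (θ + α) := by
    rw [hVθ]; exact ev_dir two_pos hη0
  have hβ : |η / 2| < η := by rw [abs_of_pos (by linarith)]; linarith
  have e2 : ∀ᶠ y in 𝓝 V, 1 < dist (x + cis (θ + η / 2)) y := by
    have h1 : 1 < dist (x + cis (θ + η / 2)) V := by
      rw [hVθ]; push_cast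
      refine far_lt (by linarith) ?_
      have : η ≤ 1 := min_le_right _ _
      linarith [Real.pi_gt_three]
    exact (continuous_const.dist continuous_id).continuousAt.eventually_const_lt h1
  have e3 : ∀ᶠ y in 𝓝 V, 0 < dist y x := by
    refine (continuous_id.dist continuous_const).continuousAt.eventually_const_lt ?_
    simp only [id_eq]
    rw [hVθ, dist_eq_norm, add_sub_cancel_left, norm_mul, norm_cis]
    norm_num
  obtain ⟨ε₁, hε₁, he₁⟩ := Metric.eventually_nhds_iff.1 ((e1.and e2).and e3)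
  obtain ⟨ε₂, hε₂, he₂⟩ := Metric.eventually_nhds_iff.1 hno
  set ε := min (min ε₁ ε₂) 1 with hε
  have hε0 : 0 < ε := lt_min (lt_min hε₁ hε₂) one_pos
  have e4 := partner_near (F := closure (U j)) isClosed_closure hε0 (line_of h hR hJ)
  have e5 : ∀ᶠ p in 𝓝 R, ∃ α : ℝ, |α| < η ∧ p = x + (dist p x : ℂ) * cis (θ + α) := by
    have := ev_dir (x := x) (θ := θ) one_pos hη0
    rw [Complex.ofReal_one, one_mul, ← hRθ] at this
    exact this
  have e6 : ∀ᶠ p in 𝓝 R, 0 < dist p x := by
    refine (continuous_id.dist continuous_const).continuousAt.eventually_const_lt ?_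
    simp only [id_eq]; rw [hR]; exact one_pos
  filter_upwards [e4, e5, e6] with p hp4 hp5 hp6 hpx
  by_contra hpU
  unfold Fre at hpU
  push Not at hpU
  obtain ⟨y, hjy, hpy⟩ := hpU
  obtain ⟨α, hα, hpα⟩ := hp5
  have hq : x + cis (θ + α) ∈ arcs x θ η := mem_arcs hα
  rcases hp4 y hpy hjy with hy | hy
  · -- `y` near `x`
    have hy1 : dist y x < 1 := lt_of_lt_of_le hy (min_le_right _ _)
    have hy2 : dist y x < ε₂ := lt_of_lt_of_le hy ((min_le_left _ _).trans (min_le_right _ _))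
    have hgt : 1 < dist (x + cis (θ + α)) y := by
      have k0 : ((dist p x : ℝ) : ℂ) * cis (θ + α) = p - x := by linear_combination -hpα
      have k1 : ‖((dist p x : ℝ) : ℂ) * cis (θ + α) - (y - x)‖ = 1 := by
        rw [k0, ← hpy, dist_eq_norm]
        congr 1
        ring
      have k2 := proj_gt (norm_cis _) k1 hp6 hpx (by rw [← dist_eq_norm]; exact hy1)
      rw [dist_eq_norm]
      rwa [show x + cis (θ + α) - y = cis (θ + α) - (y - x) by ring]
    rcases lt_trichotomy (dist R y) 1 with h1 | h1 | h1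
    · exact h.mx.wlemma hpre hΓ hRm hq h1 hgt hjy
    · rcases line_of h hR hJ y h1 hjy with e | e
      · rw [e] at hpy; linarith
      · rw [e] at hy1
        have : dist (2 * R - x) x = 2 := by
          rw [dist_eq_norm, show 2 * R - x - x = 2 * (R - x) by ring, norm_mul, ← dist_eq_norm, hR]
          norm_num
        linarith
    · exact he₂ hy2 (by rw [dist_comm]; exact h1) hjy
  · -- `y` near `2 R - x`
    obtain ⟨⟨⟨β, hβ', hyβ⟩, hy2⟩, hy3⟩ := he₁
      (lt_of_lt_of_le hy ((min_le_left _ _).trans (min_le_left _ _)))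
    have hlt : dist y x < 2 := by
      have := dist_triangle y p x
      rw [dist_comm y p, hpy] at this
      linarith
    have hnear : dist (x + cis (θ + β)) y < 1 := by
      rw [dist_eq_norm]
      have : x + cis (θ + β) - y = ((1 - dist y x : ℝ) : ℂ) * cis (θ + β) := by
        push_cast
        linear_combination (-1 : ℂ) * hyβ
      rw [this, norm_mul, norm_cis, mul_one, Complex.norm_real, Real.norm_eq_abs, abs_lt]
      exact ⟨by linarith, by linarith⟩
    exact h.mx.wlemma hpre hΓ (mem_arcs hβ') (mem_arcs hβ) hnear hy2 hjy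

/-- no partner of the colour `i` near `2 R - x` if `j` occurs at `x` towards `R` -/
theorem no_far (h : Irr U T) (hR : dist R x = 1) (hT : ∀ᶠ q in 𝓝 R, T q ⊆ {i, j})
    (hocc : ∃ᶠ y in 𝓝 x, j ∈ Pal U y ∧ dist y R < 1) : ∀ᶠ y in 𝓝 (2 * R - x), i ∉ Pal U y := by
  obtain ⟨θ, hθ⟩ := exists_cis (u := R - x) (by rw [← dist_eq_norm]; exact hR)
  have hRθ : R = x + cis θ := by rw [← hθ]; ring
  set V := 2 * R - x with hV
  -- the circle about `V`
  have hRV : R = V + cis (θ + Real.pi) := by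
    rw [hV, hRθ, cis_add_pi]; ring
  obtain ⟨r, hr, hball⟩ := Metric.eventually_nhds_iff.1 hT
  have hcont : Continuous fun t : ℝ => V + cis t := continuous_const.add continuous_cis
  obtain ⟨η₀, hη₀, hη'⟩ := Metric.continuousAt_iff.1 (hcont.continuousAt (x := θ + Real.pi)) (r / 2)
    (half_pos hr)
  set η := min η₀ 1 with hη
  have hη0 : 0 < η := lt_min hη₀ one_pos
  -- the far end
  set q₀ := V + cis (θ + Real.pi + η / 2) with hq₀
  have hq₀x : 1 < dist q₀ x := by
    have h1 := far_lt (x := V) (θ := θ + Real.pi) (β := η / 2) (by linarith)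
      (by have : η ≤ 1 := min_le_right _ _
          linarith [Real.pi_gt_three])
    have h2 : V + 2 * cis (θ + Real.pi) = x := by
      rw [cis_add_pi, hV, hRθ]; ring
    rwa [h2] at h1
  have e1 : ∀ᶠ y in 𝓝 x, 1 < dist q₀ y :=
    (continuous_const.dist continuous_id).continuousAt.eventually_const_lt hq₀x
  obtain ⟨w, ⟨hwj, hwR⟩, hwq⟩ := (hocc.and_eventually e1).exists
  -- move the arc
  have e2 : ∀ᶠ y in 𝓝 V, dist w (R + (y - V)) < 1 := by
    have hc : Continuous fun y : ℂ => dist w (R + (y - V)) := by fun_prop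
    refine hc.continuousAt.eventually_lt_const ?_
    simpa using hwR
  have e3 : ∀ᶠ y in 𝓝 V, 1 < dist (q₀ + (y - V)) w := by
    have hc : Continuous fun y : ℂ => dist (q₀ + (y - V)) w := by fun_prop
    refine hc.continuousAt.eventually_const_lt ?_
    simpa using hwq
  filter_upwards [e2, e3, ball_mem_nhds V (half_pos hr)] with y hy2 hy3 hy4 hiy
  let A : Set ℂ := (fun t : ℝ => y + cis t) '' Icc (θ + Real.pi) (θ + Real.pi + η / 2)
  have hA : IsPreconnected A :=
    isPreconnected_Icc.image _ (continuous_const.add continuous_cis).continuousOn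
  have hAj : A ⊆ closure (U j) := by
    rintro _ ⟨t, ht, rfl⟩
    have h1 : dist (y + cis t) R < r := by
      have k1 : dist (V + cis t) (V + cis (θ + Real.pi)) < r / 2 := by
        refine hη' ?_
        rw [Real.dist_eq, abs_lt]
        have : η ≤ η₀ := min_le_left _ _
        exact ⟨by linarith [ht.1], by linarith [ht.2]⟩
      rw [← hRV] at k1
      have k2 : dist (y + cis t) (V + cis t) < r / 2 := by
        rw [dist_add_right]; exact hy4
      have := dist_triangle (y + cis t) (V + cis t) R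
      linarith
    have h2 := hball h1
    refine h.sub _ ?_
    show j ∈ T (y + cis t)
    by_contra hcon
    have h4 : T (y + cis t) ⊆ {i} := by
      intro m hm
      rcases h2 hm with h5 | h5
      · exact h5
      · exact absurd (h5 ▸ hm) hcon
    exact h.mx.notMem' (h.mem_of_single h4) (dist_add_cis y t) hiy
  have hRA : R + (y - V) ∈ A := by
    refine ⟨θ + Real.pi, ⟨le_refl _, by linarith⟩, ?_⟩
    show y + cis (θ + Real.pi) = R + (y - V)
    linear_combination (-1 : ℂ) * hRV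
  have hqA : q₀ + (y - V) ∈ A := by
    refine ⟨θ + Real.pi + η / 2, ⟨by linarith, le_refl _⟩, ?_⟩
    show y + cis (θ + Real.pi + η / 2) = q₀ + (y - V)
    rw [hq₀]; ring
  exact h.mx.wlemma hA hAj hRA hqA (by rw [dist_comm]; exact hy2) hy3 hwj

/-- **The outer side.** -/
theorem side_out (h : Irr U T) (hR : dist R x = 1) (hJ : ∀ᶠ q in 𝓝[sphere x 1] R, i ∈ Pal U q)
    (hno : ∀ᶠ y in 𝓝 x, dist y R < 1 → i ∉ Pal U y) (hfar : ∀ᶠ y in 𝓝 (2 * R - x), i ∉ Pal U y) :
    ∀ᶠ p in 𝓝 R, 1 < dist p x → Fre U i p := by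
  obtain ⟨θ, hθ⟩ := exists_cis (u := R - x) (by rw [← dist_eq_norm]; exact hR)
  have hRθ : R = x + cis θ := by rw [← hθ]; ring
  have hJ' := hJ
  rw [hRθ] at hJ'
  obtain ⟨η, hη0, hΓ₀⟩ := exists_arcs hJ'
  have hΓ : ∀ q ∈ arcs x θ η, q ∈ closure (U i) := hΓ₀
  have hpre := arcs_preconnected x θ η
  have hRm : R ∈ arcs x θ η := by
    have := mem_arcs (x := x) (θ := θ) (η := η) (α := 0) (by rw [abs_zero]; exact hη0)
    rwa [add_zero, ← hRθ] at this
  obtain ⟨ε₁, hε₁, he₁⟩ := Metric.eventually_nhds_iff.1 hfar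
  obtain ⟨ε₂, hε₂, he₂⟩ := Metric.eventually_nhds_iff.1 hno
  set ε := min (min ε₁ ε₂) 1 with hε
  have hε0 : 0 < ε := lt_min (lt_min hε₁ hε₂) one_pos
  have e4 := partner_near (F := closure (U i)) isClosed_closure hε0 (line_of h hR hJ)
  have e5 : ∀ᶠ p in 𝓝 R, ∃ α : ℝ, |α| < η ∧ p = x + (dist p x : ℂ) * cis (θ + α) := by
    have := ev_dir (x := x) (θ := θ) one_pos hη0
    rw [Complex.ofReal_one, one_mul, ← hRθ] at this
    exact this
  filter_upwards [e4, e5] with p hp4 hp5 hpx
  by_contra hpU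
  unfold Fre at hpU
  push Not at hpU
  obtain ⟨y, hiy, hpy⟩ := hpU
  obtain ⟨α, hα, hpα⟩ := hp5
  have hq : x + cis (θ + α) ∈ arcs x θ η := mem_arcs hα
  rcases hp4 y hpy hiy with hy | hy
  · have hy1 : dist y x < 1 := lt_of_lt_of_le hy (min_le_right _ _)
    have hy2 : dist y x < ε₂ := lt_of_lt_of_le hy ((min_le_left _ _).trans (min_le_right _ _))
    have hlt : dist (x + cis (θ + α)) y < 1 := by
      have k0 : ((dist p x : ℝ) : ℂ) * cis (θ + α) = p - x := by linear_combination -hpα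
      have k1 : ‖((dist p x : ℝ) : ℂ) * cis (θ + α) - (y - x)‖ = 1 := by
        rw [k0, ← hpy, dist_eq_norm]
        congr 1
        ring
      have k2 := proj_lt (norm_cis _) k1 hpx (by rw [← dist_eq_norm]; exact hy1)
      rw [dist_eq_norm]
      rwa [show x + cis (θ + α) - y = cis (θ + α) - (y - x) by ring]
    rcases lt_trichotomy (dist R y) 1 with h1 | h1 | h1
    · exact he₂ hy2 (by rw [dist_comm]; exact h1) hiy
    · rcases line_of h hR hJ y h1 hiy with e | e
      · rw [e] at hpy; linarith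
      · rw [e] at hy1
        have : dist (2 * R - x) x = 2 := by
          rw [dist_eq_norm, show 2 * R - x - x = 2 * (R - x) by ring, norm_mul, ← dist_eq_norm, hR]
          norm_num
        linarith
    · exact h.mx.wlemma hpre hΓ hq hRm hlt h1 hiy
  · exact he₁ (lt_of_lt_of_le hy ((min_le_left _ _).trans (min_le_left _ _))) hiy

end Vale.Agent.P032.H374
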